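import Crest.Agent.X212.Gls64.Defs
import Crest.Agent.X212.Wal9.Mo

/-!
# Row 212, GL-FLAT, GL-HT, GL-DG (helper9)
-/

set_option autoImplicit false
set_option linter.unusedSectionVars false
noncomputable section
open scoped Manifold ContDiff Topology InnerProductSpace
open MeasureTheory Set Function Filter

namespace Crest.Agent.X212.Fht9
open An Sw Sob92 Cyf70 Sw.En3 Pb50 Wal9 Gls64
open Nd18 (Jv Dp tf fl fl_le fl_ge)
open M (Mf pm)

/-! ### the time function -/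

section tf
variable {P Q : Option ℝ} {s r a : ℝ}

theorem fl_nonneg (h : 0 ≤ s) : 0 ≤ fl s :=
  mul_nonneg h (sub_nonneg.2 (Real.smoothTransition.le_one _))

theorem tf_lo (hl : ∀ a ∈ P, ∀ b ∈ Q, a + 2 ≤ b) (ha : a ∈ P) (h : s ≤ a) : tf P Q s = a := by
  obtain rfl := Option.mem_def.1 ha
  cases Q with
  | none => simp [tf, fl_le (show s - a ≤ 1 / 2 by linarith)]
  | some b => simp [tf, fl_le (show s - a ≤ 1 / 2 by linarith),
      fl_ge (show 1 ≤ b - s by linarith [hl a rfl b rfl])]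

theorem tf_hi (hl : ∀ a ∈ P, ∀ b ∈ Q, a + 2 ≤ b) (ha : a ∈ Q) (h : a ≤ s) : tf P Q s = a := by
  obtain rfl := Option.mem_def.1 ha
  cases P with
  | none => simp [tf, fl_le (show a - s ≤ 1 / 2 by linarith)]
  | some b => simp [tf, fl_le (show a - s ≤ 1 / 2 by linarith),
      fl_ge (show 1 ≤ s - b by linarith [hl b rfl a rfl])]

theorem tf_big (h : ∀ a ∈ P, a + 1 ≤ s) : tf P none s = s :=
  Nd18.tf_eq ⟨h, by simp⟩

theorem tf_le (h : ∀ a ∈ P, a + 1 ≤ r) : tf P none s ≤ r ↔ s ≤ r := by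
  refine ⟨fun k => not_lt.1 fun k' => k'.not_ge
    (tf_big (fun a ha => (h a ha).trans k'.le) ▸ k), fun k => ?_⟩
  cases P with
  | none => simpa [tf] using k
  | some a =>
    rcases le_total s a with k' | k'
    · rw [tf_lo (by simp) rfl k']; linarith [h a rfl]
    · simp only [tf, Option.elim_some, Option.elim_none]; linarith [fl_nonneg (sub_nonneg.2 k')]

theorem tf_min {d A : ℝ} (hP : ∀ a ∈ P, a + 1 ≤ A) (hQ : ∀ q ∈ Q, A + 1 + d ≤ q)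
    (hs : ∀ q ∈ Q, s + d < q) : min (tf (P.map (· + d)) Q (s + d) - d) A = min (tf P none s) A := by
  have e : tf (P.map (· + d)) Q (s + d) - d = tf P none s + Q.elim 0 fun q => fl (q - (s + d)) := by
    cases P <;> simp [tf] <;> ring
  rw [e]
  cases Q with
  | none => simp
  | some q =>
    rcases le_total 1 (q - (s + d)) with k | k
    · simp [fl_ge k]
    · have := hQ q rfl
      rw [tf_big fun a ha => by linarith [hP a ha], min_eq_right, min_eq_right (by linarith)]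
      simp only [Option.elim_some]
      linarith [fl_nonneg (sub_nonneg.2 (hs q rfl).le)]

end tf

/-! ### one side of a cut in oriented coordinates -/

section top
variable {Z Z' : Type} [TopologicalSpace Z] [TopologicalSpace Z'] (φ : OpenPartialHomeomorph Z' Z)
  (θ' : Z' → ℝ) (θ : Z → ℝ) (P Q : Option ℝ) (d : ℝ)

structure Sd : Prop where
  con : ConnectedSpace Z'
  c' : Continuous θ'
  c : Continuous θ
  len : ∀ a ∈ P.map (· + d), ∀ q ∈ Q, a + 2 ≤ q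
  src : ∀ x, x ∈ φ.source ↔ ¬(θ' x ∈ Jv P none ∧ θ' x + d ∉ Jv (P.map (· + d)) Q)
  tm : ∀ x ∈ φ.source, θ' x ∈ Jv P none → θ (φ x) = θ' x + d
  sur : ∀ z, θ z ∈ Jv (P.map (· + d)) Q → ∃ x ∈ φ.source, θ' x ∈ Jv P none ∧ φ x = z
  ne : ∃ x, θ' x ∈ Jv P none

variable {φ θ' θ P Q d} (h : Sd φ θ' θ P Q d)
include h

theorem Sd.off {x : Z'} (hx : θ' x ∉ Jv P none) : ∃ a ∈ P, θ' x ≤ a ∧ θ (φ x) ≤ a + d := by
  have s : ∀ x, θ' x ∉ Jv P none → x ∈ φ.source := fun x hx => (h.src x).2 fun k => hx k.1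
  have n : ∀ x, θ' x ∉ Jv P none → θ (φ x) ∉ Jv (P.map (· + d)) Q := fun x hx k => by
    obtain ⟨x', k1, k2, k3⟩ := h.sur _ k
    exact hx (φ.injOn k1 (s x hx) k3 ▸ k2)
  obtain _ | a := P
  · simp [Jv] at hx
  have j : ∀ t, t ∉ Jv (some a) none ↔ t ≤ a := fun t => by simp [Jv]
  refine ⟨a, rfl, (j _).1 hx, ?_⟩
  obtain _ | q := Q
  · simpa [Jv] using n x hx
  have l := h.len _ rfl q rfl
  have j' : ∀ t, t ∉ Jv ((some a).map (· + d)) (some q) → a + d < t → q ≤ t := fun t => by simp [Jv]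
  have := h.con
  have cl : IsClosed {x | θ' x ≤ a} := isClosed_le h.c' continuous_const
  have co := h.c.comp_continuousOn φ.continuousOn
  have B : IsClopen ({x | θ' x ≤ a} ∩ (θ ∘ φ) ⁻¹' Ici q) := by
    refine ⟨(co.mono fun x hx => s x ((j _).2 hx)).preimage_isClosed_of_isClosed cl isClosed_Ici,
      isOpen_iff_mem_nhds.2 fun x ⟨k1, k2⟩ => ?_⟩
    have m := φ.open_source.mem_nhds (s x ((j _).2 k1))
    filter_upwards [m, (co.continuousAt m).eventually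
      (lt_mem_nhds (show q - 1 / 2 < _ from lt_of_lt_of_le (by linarith) k2)),
      h.c'.continuousAt.eventually (gt_mem_nhds (show _ < a + 1 / 2 from
        lt_of_le_of_lt k1 (by linarith)))] with y k3 k4 k5
    have k6 : θ' y ∉ Jv (some a) none := fun k => by
      have := h.tm y k3 k
      simp only [comp] at k4 l
      linarith
    exact ⟨(j _).1 k6, j' _ (n y k6) (by simp only [comp] at k4 l ⊢; linarith)⟩
  rcases isClopen_iff.1 B with e | e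
  · exact not_lt.1 fun k => (e ▸ notMem_empty x :) ⟨(j _).1 hx, j' _ (n x hx) k⟩
  · obtain ⟨y, hy⟩ := h.ne
    exact absurd hy ((j _).2 (e.ge (mem_univ y)).1)

theorem Sd.src' {A : ℝ} (hQ : ∀ q ∈ Q, A + 1 + d ≤ q) {x : Z'}
    (hx : θ' x ≤ A) : x ∈ φ.source := (h.src x).2 fun k => k.2
  ⟨fun _ ha => let ⟨a, k1, e⟩ := Option.mem_map.1 ha; by linarith [k.1.1 a k1],
    fun q hq => by linarith [hQ q hq]⟩

theorem Sd.ht {A : ℝ} (hP : ∀ a ∈ P, a + 1 ≤ A) (hQ : ∀ q ∈ Q, A + 1 + d ≤ q) {x : Z'}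
    (hx : x ∈ φ.source) :
    min (tf (P.map (· + d)) Q (θ (φ x)) - d) A = min (tf P none (θ' x)) A := by
  by_cases k : θ' x ∈ Jv P none
  · rw [h.tm x hx k]
    exact tf_min hP hQ (not_not.1 fun e => (h.src x).1 hx ⟨k, e⟩ : _ ∈ Jv _ Q).2
  · obtain ⟨a, k1, k2, k3⟩ := h.off k
    rw [tf_lo h.len (Option.mem_map.2 ⟨a, k1, rfl⟩) k3, tf_lo (by simp) k1 k2, add_sub_cancel_right]

theorem Sd.tgt {z : Z} (hz : z ∈ φ.target) (k : θ z ∉ Jv (P.map (· + d)) Q) :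
    ∃ a ∈ P, θ z ≤ a + d := by
  have m := φ.map_target hz
  obtain ⟨a, k1, -, k2⟩ := h.off (x := φ.symm z) fun e => k (by
    rw [← φ.right_inv hz, h.tm _ m e]; exact not_not.1 fun e' => (h.src _).1 m ⟨e, e'⟩)
  exact ⟨a, k1, φ.right_inv hz ▸ k2⟩

end top

variable {κ lam ν : Type} [Fintype κ] [Fintype lam] [Fintype ν] [DecidableEq ν]
  {X X' : Mf 4} {nc nc' : ℕ}

section nk
variable {e : En3 κ lam ν} {B : Bg X.I X.M κ lam ν nc} (K : Nk e B) (b : Bool)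

/-- the oriented ends -/
def op : Option ℝ := if b then K.p else K.q.map (-·)

def oq : Option ℝ := if b then K.q else K.p.map (-·)

theorem mem_J {t : ℝ} : t ∈ K.J ↔ pm b * t ∈ Jv (op K b) (oq K b) := by
  cases b
  · cases hp : K.p <;> cases hq : K.q <;> simp [op, oq, pm, Jv, Nd18.Nk.J, hp, hq, and_comm]
  · simp [op, oq, pm]

theorem ht_eq (x : X.M) : ht K b x = tf (op K b) (oq K b) (pm b * K.tm x) := by
  cases b
  · cases hp : K.p <;> cases hq : K.q <;> simp [ht, Nd18.Nk.τ, op, oq, pm, tf, hp, hq] <;> ring_nf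
  · simp [ht, Nd18.Nk.τ, op, oq, pm]

theorem olen : ∀ a ∈ op K b, ∀ q ∈ oq K b, a + 2 ≤ q := by
  cases b
  · intro a ha q hq
    obtain ⟨a, k1, rfl⟩ := Option.mem_map.1 ha
    obtain ⟨q, k2, rfl⟩ := Option.mem_map.1 hq
    linarith [K.len q k2 a k1]
  · exact K.len

theorem oq_inf (h : K.Inf b) : oq K b = none := by
  cases b
  exacts [by simp [oq, show K.p = none from h], h]

theorem oq_not {q : ℝ} : q ∈ oq K b ↔ -q ∈ op K (!b) := by
  cases b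
  · cases hp : K.p <;> simp [op, oq, hp, neg_eq_iff_eq_neg]
  · cases hp : K.q <;> simp [op, oq, hp]

theorem mem_img {S : Set ℝ} (hS : S ⊆ K.J) {x : X.M} : x ∈ K.ψ '' (univ ×ˢ S) ↔ K.tm x ∈ S := by
  refine ⟨fun ⟨z, hz, e⟩ => by rw [← e, K.tm_ψ z (K.mem_src.2 (hS hz.2))]; exact hz.2, fun hx => ?_⟩
  have h1 : x ∈ K.ψ.target := K.tgt ▸ hS hx
  exact ⟨_, ⟨trivial, K.snd_symm h1 ▸ hx⟩, K.ψ.right_inv h1⟩

theorem far_iff (h : K.Inf b) {r : ℝ} (hr : ∀ a ∈ op K b, a + 1 ≤ r) (x : X.M) :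
    x ∉ K.ψ '' (univ ×ˢ K.far b r) ↔ ht K b x ≤ r := by
  rw [mem_img K (S := K.far b r) inter_subset_left, ht_eq, oq_inf K b h, tf_le hr]
  refine ⟨fun k => not_lt.1 fun k' => k ⟨(mem_J K b).2 ⟨fun a ha => by linarith [hr a ha],
    by simp [oq_inf K b h]⟩, k'⟩, fun k k' => k.not_gt k'.2⟩

variable {B' : Bg X'.I X'.M κ lam ν nc'} (K' : Nk e B')

theorem sd (hc : ConnectedSpace X'.M) {φ : OpenPartialHomeomorph X'.M X.M} {δ : ℝ} (h : K'.Inf b)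
    (h1 : if b then K.p = K'.p.map (· + δ) else K.q = K'.q.map (· + δ))
    (h2 : φ.source = {x | x ∉ K'.ψ '' (univ ×ˢ {t ∈ K'.J | t + δ ∉ K.J})})
    (h3 : ∀ y t, t ∈ K'.J → t + δ ∈ K.J → φ (K'.ψ (y, t)) = K.ψ (y, t + δ)) :
    op K b = (op K' b).map (· + pm b * δ) ∧ Sd φ (fun x => pm b * K'.tm x) (fun x => pm b * K.tm x)
      (op K' b) (oq K b) (pm b * δ) := by
  have e : op K b = (op K' b).map (· + pm b * δ) := by
    cases b
    · rw [op, op, show K.q = _ from h1]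
      cases K'.q <;> simp [pm, add_comm]
    · simpa [op, pm] using h1
  have j' : ∀ t, t ∈ K'.J ↔ pm b * t ∈ Jv (op K' b) none := fun t => oq_inf K' b h ▸ mem_J K' b
  have j : ∀ t, t ∈ K.J ↔ pm b * t ∈ Jv ((op K' b).map (· + pm b * δ)) (oq K b) :=
    fun t => e ▸ mem_J K b
  have s : ∀ x, x ∈ φ.source ↔ ¬(K'.tm x ∈ K'.J ∧ K'.tm x + δ ∉ K.J) := fun x => by
    rw [h2, mem_ofPred, mem_img K' (sep_subset _ _)]; rfl
  refine ⟨e, hc, continuous_const.mul K'.cont, continuous_const.mul K.cont, e ▸ olen K b,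
    fun x => by rw [s, j', j, mul_add], fun x hx k => ?_, fun z k => ?_, ?_⟩
  · have k := (j' _).2 k
    have k1 := not_not.1 fun e => (s x).1 hx ⟨k, e⟩
    obtain ⟨⟨y, t⟩, k2, rfl⟩ := (mem_img K' Subset.rfl).2 k
    rw [K'.tm_ψ _ (src K' k2.2 y)] at k1 ⊢
    rw [h3 y t k2.2 k1, K.tm_ψ _ (src K k1 y), mul_add]
  · obtain ⟨⟨y, t⟩, k2, rfl⟩ := (mem_img K Subset.rfl).2 ((j _).2 k)
    have k1 : t - δ ∈ K'.J := (j' _).2 ⟨fun a ha => by
      linarith [((j _).1 k2.2).1 _ (Option.mem_map.2 ⟨a, ha, rfl⟩)], by simp⟩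
    have k3 : t - δ + δ ∈ K.J := (sub_add_cancel t δ).symm ▸ k2.2
    have k4 := K'.tm_ψ _ (src K' k1 y)
    exact ⟨K'.ψ (y, t - δ), (s _).2 fun e => e.2 (k4 ▸ k3), k4 ▸ (j' _).1 k1,
      by rw [h3 y _ k1 k3, sub_add_cancel]⟩
  · have k : pm b * ((op K' b).getD 0 + 1) ∈ K'.J := (j' _).2 ⟨fun a ha => by
      cases b <;> simp [pm, Option.mem_def.1 ha], by simp⟩
    exact ⟨_, (j' _).1 ((K'.tm_ψ _ (src K' k (Classical.arbitrary _))).symm.subst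
      (motive := (· ∈ K'.J)) k)⟩

theorem ht_of {Z₂ : Type} [TopologicalSpace Z₂] {φ : OpenPartialHomeomorph X'.M X.M}
    {φ₂ : OpenPartialHomeomorph Z₂ X.M} {θ₂ : Z₂ → ℝ} {P₂ : Option ℝ} {d d₂ A : ℝ} (h : K'.Inf b)
    (e₁ : op K b = (op K' b).map (· + d)) (e₂ : op K (!b) = P₂.map (· + d₂))
    (h₁ : Sd φ (fun x => pm b * K'.tm x) (fun x => pm b * K.tm x) (op K' b) (oq K b) d)
    (h₂ : Sd φ₂ θ₂ (fun x => pm (!b) * K.tm x) P₂ (oq K (!b)) d₂) (cov : φ.target ∪ φ₂.target = univ)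
    (hP : ∀ a ∈ op K' b, a + 1 ≤ A) (hQ : ∀ q ∈ oq K b, A + 1 + d ≤ q) :
    Ht φ (ht K' b) (fun z => ht K b z - d) A := by
  simp only [funext (ht_eq K b), funext (ht_eq K' b), oq_inf K' b h, e₁]
  refine ⟨(Nd18.contDiff_tf.continuous.comp h₁.c).sub continuous_const,
    fun x hx => h₁.src' hQ ((tf_le hP).1 (le_of_lt hx)), fun z hz => by_contra fun k => ?_,
    fun x => h₁.ht hP hQ⟩
  have k1 : K.tm z ∉ K.J := fun k1 => by
    obtain ⟨x, k2, -, rfl⟩ := h₁.sur z (e₁ ▸ (mem_J K b).1 k1)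
    exact k (φ.map_source k2)
  obtain ⟨a, k2, k3⟩ := h₂.tgt ((cov.ge (mem_univ z)).resolve_left k)
    fun e => k1 ((mem_J K (!b)).2 (e₂ ▸ e))
  have k4 : -(a + d₂) ∈ oq K b := (oq_not K b).2 (by simp [e₂, Option.mem_def.1 k2])
  rw [mem_ofPred, tf_hi h₁.len k4 (by cases b <;> simp [pm] at k3 ⊢ <;> linarith)] at hz
  linarith [hQ _ k4]

end nk

variable {d : Dt κ lam ν} {nr : ℕ} {T : Type} [NormedAddCommGroup T] [NormedSpace ℝ T]
  [FiniteDimensional ℝ T]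

theorem hi_le {ι V : Type} [Fintype ι] [NormedAddCommGroup V] [NormedSpace ℝ V] {F : Fr X.I X.M ι}
    {C : ℕ → ℝ} (hT : F.Tame C) : ∃ A, 0 ≤ A ∧ ∀ f : X.M → V, Hi F.toPre f → ∀ w : List ι,
      w.length ≤ 1 → ∀ x, ‖F.Dw w f x‖ ≤ A * √(N2 F.toPre 5 f) := by
  have k : ∀ f : X.M → V, Hi F.toPre f → ∀ x, ‖f x‖ ^ 2 ≤
      |C 0| * (cK ι 4 * ‖ContinuousLinearMap.lsmul ℝ ℝ (E := V)‖ * C 4) ^ 2 * N2 F.toPre 4 f := by
    intro f h x
    obtain ⟨χ, h2, h3, -, h4⟩ := hT.exh {x} isCompact_singleton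
    have h5 := (Sup.of_tame hT).sq_le (u := fun y => χ y • f y) (h2.1.smul h.1)
      (hcs_bil_left (ContinuousLinearMap.lsmul ℝ ℝ) f h3) x
    rw [h4 x rfl, one_smul] at h5
    exact h5.trans ((mul_le_mul_of_nonneg_left (N2_mul (ContinuousLinearMap.lsmul ℝ ℝ) h2.1 h.1
      (h2.2 4) (h.2 4)).2 (abs_nonneg _)).trans_eq (mul_assoc _ _ _).symm)
  refine ⟨_, Real.sqrt_nonneg _, fun f h w hw x => (Real.le_sqrt_of_sq_le
    ((k _ (h.Dw w) x).trans (mul_le_mul_of_nonneg_left ?_ (by positivity)))).trans_eq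
    (Real.sqrt_mul (by positivity) _)⟩
  match w, hw with
  | [], _ => exact n2_le_succ 4 f
  | [a], _ => exact n2_dv_le 4 f a

section flat
variable {N : Type} [Fintype N] {ty : N → d.𝓔} {s : Pz X 0 fun i => d.e (ty i)} {σ : Cel s nc nr T}

/-- the distance `dk 5` controls the `C¹` distance on the ends -/
theorem cl_dk (h : σ.OK) {i : N} {K : Nk (d.e (ty i)) s.bg} (hK : K ∈ s.nk i) : ∃ A, 0 ≤ A ∧
    ∀ y x : σ.Pnt, Cl (K.pb y.1.2) (K.pb x.1.2) K.J 1 (A * σ.dk 5 y x) := by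
  have hβ : s.Cr σ.β := fun i b k => (h.gd i b k).crit
  obtain ⟨C, hT⟩ := h.site.bg.tame
  obtain ⟨A, A0, hA⟩ := hi_le (V := ℝ) hT
  obtain ⟨A', A0', hA'⟩ := hi_le (V := Eu ν) hT
  refine ⟨A + A', by positivity, fun y x w hw z hz => ?_⟩
  have hs := K.mem_src.2 hz.2
  have h1 := ((hs_iff hT).1 (sub_mem (hs_a h.toOK hβ y) (hs_a h.toOK hβ x))).1
  have h2 := ((hs_iff hT).1 (sub_mem (hs_Φ h.toOK hβ y) (hs_Φ h.toOK hβ x))).1
  rw [show _ - _ = σ.al y.1.1 y.1.2 - σ.al x.1.1 x.1.2 from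
    funext fun _ => sub_sub_sub_cancel_right _ _ _] at h1
  rw [sub_sub_sub_cancel_right] at h2
  have n1 := nrm_nonneg (F := s.bg.F.toPre) 5 (σ.al y.1.1 y.1.2 - σ.al x.1.1 x.1.2)
  have n2 := nrm_nonneg (F := s.bg.F.toPre) 5 (y.1.2.Φ - x.1.2.Φ)
  have n3 := norm_nonneg (y.1.1 - x.1.1)
  refine ⟨fun a => ?_, ?_⟩
  · let L := PiLp.proj (𝕜 := ℝ) 2 (fun _ : Option κ => ℝ) a
    have k1 := hA _ (h1.clm L) w hw (K.ψ z)
    have k2 := (n2_clm_le s.bg.F.sm L 5 h1.1 (h1.2 5)).trans (mul_le_of_le_one_left (n2_nonneg _ _)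
      (pow_le_one₀ (norm_nonneg _) (L.opNorm_le_bound zero_le_one fun v =>
        (PiLp.norm_apply_le v a).trans_eq (one_mul _).symm)))
    have al : ∀ y : σ.Pnt, ∀ z ∈ K.ψ.source, σ.al y.1.1 y.1.2 (K.ψ z) a = y.1.2.a a (K.ψ z) :=
      fun y z hz => (Finset.sum_congr rfl fun j _ => by rw [Si_nk h.toOK y.2.1 hK hz]).trans
        (((as_fam h.toOK y.2.1 _ _).1 y.2.2).2 a _)
    rw [Dw_ψ K hs, (Dw_congr w (f := fun z => L ((σ.al y.1.1 y.1.2 - σ.al x.1.1 x.1.2) (K.ψ z)))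
      (g := (K.pb y.1.2).a a - (K.pb x.1.2).a a) ((ev_src K hs).mono
      fun z hz => congrArg₂ (· - ·) (al y z hz) (al x z hz))).self_of_nhds] at k1
    refine k1.trans (mul_le_mul (by linarith) ((Real.sqrt_le_sqrt k2).trans ?_) (Real.sqrt_nonneg _)
      (by positivity))
    rw [← nrm_eq, Cel.dk]
    linarith
  · have k1 := hA' _ h2 w hw (K.ψ z)
    rw [Dw_ψ K hs, ← nrm_eq] at k1
    exact k1.trans (mul_le_mul (by linarith) (by rw [Cel.dk]; linarith) n2 (by positivity))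

variable (d ty X nc nr T) in
/-- **GL-FLAT** -/
theorem flat : FlatStmt d ty X nc nr T := by
  intro s σ h i b K hK hb x
  have sa : ∀ y : σ.Pnt, ∀ τ ∈ K.J, Sa (K.pb y.1.2) τ := fun y τ hτ =>
    let ⟨K₀, _, k2⟩ := h.en _ y.2.1 i K hK; ng_pb k2 _ ▸ sa_pb K₀ y.2.2.1 (ng_J k2 ▸ hτ)
  obtain ⟨K₀, k1, k2⟩ := h.en _ x.2.1 i K hK
  obtain ⟨A, A0, hA⟩ := cl_dk h hK
  have t : Tendsto (fun y => A * σ.dk 5 y x) (comap (σ.dk 5 · x) (𝓝 0)) (𝓝 0) := by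
    simpa using (tendsto_comap (f := (σ.dk 5 · x)) (x := 𝓝 0)).const_mul A
  obtain ⟨R, C, k⟩ := lev (h.site.en i) K (sa x) (β := σ.β i)
    (fun b' hb => ⟨h.gd i b' ⟨K, hK, hb⟩, fun η hη => ng_pb k2 _ ▸ far (h.site.en i) K₀
      ((ng_inf k2).2 hb) x.2.2.1 (h.gd i b' ⟨K, hK, hb⟩).crit.1
      (x.2.2.2 i b' K₀ k1 ((ng_inf k2).2 hb)) 1 hη⟩) (S := fun _ => K.deep 1) (fun _ => Subset.rfl)
    fun η hη => (t.eventually (ge_mem_nhds hη)).mono fun y hy w hw z hz =>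
      (hA y x w hw z ⟨trivial, deep_J K one_pos hz.2⟩).imp (fun k a => (k a).trans hy) (·.trans hy)
  obtain ⟨η, hη, k⟩ := (Metric.nhds_basis_closedBall.comap _).eventually_iff.1 k
  obtain ⟨T₀, -, -, k3⟩ := β_T K b
  refine ⟨η, hη, max (R + 1) T₀, fun y hy t _ ht => ?_⟩
  have w := β_Wn K hb ((k3 t ((le_max_right _ _).trans ht)).trans_ne one_ne_zero)
  refine (k (x := y) (mem_closedBall_zero_iff.2 ((Real.norm_of_nonneg ?_).trans_le hy)) t w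
    fun τ hτ => sa y τ (deep_J K one_pos (w hτ))).2 b hb (by linarith [le_max_left (R + 1) T₀])
  exact add_nonneg (add_nonneg (nrm_nonneg _ _) (nrm_nonneg _ _)) (norm_nonneg _)

end flat

variable (d X) (X₁ X₂ : Mf 4) (nc nr) (n₁ r₁ n₂ r₂ : ℕ) (T) (T₁ T₂ : Type)
  [NormedAddCommGroup T₁] [NormedSpace ℝ T₁] [FiniteDimensional ℝ T₁]
  [NormedAddCommGroup T₂] [NormedSpace ℝ T₂] [FiniteDimensional ℝ T₂]
  [Fintype d.𝓔] (Sl : Type) [Fintype Sl]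

/-- **GL-HT** -/
theorem htStmt : HtStmt d X X₁ X₂ nc nr n₁ r₁ n₂ r₂ T T₁ T₂ Sl := by
  intro s s₁ s₂ σ σ₁ σ₂ p _ hp K₁ h₁ K₂ h₂ i₁ i₂
  obtain ⟨l, hl⟩ := hp.cut ∅
  obtain ⟨t₁, m₁⟩ := hp.okL.ne
  obtain ⟨t₂, m₂⟩ := hp.okR.ne
  refine eventually_inf_principal.2 (tendsto_comap.eventually (eventually_ge_atTop
    (|l| + |(op K₁ true).getD 0| + |(op K₂ false).getD 0| + 4)) |>.mono fun δ hδ hΔ => ?_)
  have a1 := abs_nonneg l
  have a2 := abs_nonneg ((op K₁ true).getD 0)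
  have a3 := abs_nonneg ((op K₂ false).getD 0)
  simp only [sp] at hδ ⊢
  obtain ⟨-, cov, -, HL, HR⟩ := hl δ hΔ (by linarith [le_abs_self l]) t₁ m₁ t₂ m₂
  obtain ⟨K, k1, L₁, l1, -, l2, l3, l4, -⟩ := HL.nk
  obtain ⟨K', k2, L₂, r1, -, r2, r3, r4, -⟩ := HR.nk
  obtain rfl := Option.mem_unique k1 k2
  obtain ⟨_, l5, l6⟩ := hp.okL.en _ m₁ _ K₁ h₁
  obtain ⟨_, r5, r6⟩ := hp.okR.en _ m₂ _ K₂ h₂
  obtain rfl := Option.mem_unique l1 l5
  obtain rfl := Option.mem_unique r1 r5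
  rw [ng_p l6, ng_q l6] at l2
  rw [ng_p r6, ng_q r6] at r2
  rw [ng_J l6, ng_ψ l6] at l3 l4
  rw [ng_J r6, ng_ψ r6] at r3 r4
  obtain ⟨e₁, s₁⟩ := sd K true K₁ hp.okL.site.con i₁ l2 l3 l4
  obtain ⟨e₂, s₂⟩ := sd K false K₂ hp.okR.site.con i₂ r2 r3 r4
  have f : ∀ {P : Option ℝ}, ∀ a ∈ P, |a| = |P.getD 0| := fun a ha => by simp [Option.mem_def.1 ha]
  refine ⟨_, ht_of K true K₁ i₁ e₁ e₂ s₁ s₂ cov (fun a ha => by linarith [f a ha, le_abs_self a])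
    fun q hq => ?_, ?_⟩
  · obtain ⟨a, k, e⟩ := Option.mem_map.1 (e₂ ▸ (oq_not K true).1 hq :)
    simp only [pm, Bool.false_eq_true, if_false, if_true] at e ⊢
    linarith [f a k, le_abs_self a]
  · convert ht_of K false K₂ i₂ e₂ e₁ s₂ s₁ ((union_comm _ _).trans cov) (A := 3 * ((δ.2 - δ.1) / 4) + 3)
      (fun a ha => by linarith [f a ha, le_abs_self a]) fun q hq => ?_ using 2
    · simp only [ht, pm, Bool.false_eq_true, if_false, if_true]; ring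
    · obtain ⟨a, k, e⟩ := Option.mem_map.1 (e₁ ▸ (oq_not K false).1 hq :)
      simp only [pm, Bool.false_eq_true, if_false, if_true] at e ⊢
      linarith [f a k, le_abs_self a]

/-- **GL-DG** -/
theorem dgStmt : DgStmt d X X₁ X₂ nc nr n₁ r₁ n₂ r₂ T T₁ T₂ Sl := by
  intro s s₁ s₂ σ σ₁ σ₂ p _ hp K₁ h₁ K₂ h₂ i₁ i₂ ι l y x z
  have lg : ∀ δ : ι → ℝ × ℝ, Tendsto δ l (sp p (ht K₁ true) (ht K₂ false)).lg ↔
      Tendsto (fun i => (δ i).2 - (δ i).1) l atTop ∧ ∀ᶠ i in l, δ i ∈ p.Δ := fun δ => by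
    rw [Sp.lg, tendsto_inf, tendsto_comap_iff, tendsto_principal]
    exact and_congr_left' (tendsto_div_const_atTop_of_pos four_pos)
  have e : ∀ δ : ι → ℝ × ℝ, Tendsto (fun i => (δ i).2 - (δ i).1) l atTop → ∀ᶠ i in l,
      σ₁.upto (p.ε, p.aL) true (((δ i).2 - (δ i).1) / 2 + 1) =
        {a | ht K₁ true a ≤ 2 * (((δ i).2 - (δ i).1) / 4) + 1} ∧
      σ₂.upto (p.ε, p.aR) false (((δ i).2 - (δ i).1) / 2 + 1) =
        {a | ht K₂ false a ≤ 2 * (((δ i).2 - (δ i).1) / 4) + 1} := fun δ hδ => by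
    filter_upwards [hδ.eventually_ge_atTop (2 * (op K₁ true).getD 0),
      hδ.eventually_ge_atTop (2 * (op K₂ false).getD 0)] with i k1 k2
    rw [show 2 * (((δ i).2 - (δ i).1) / 4) = ((δ i).2 - (δ i).1) / 2 by ring]
    refine ⟨Set.ext fun a => ?_, Set.ext fun a => ?_⟩
    · simp only [Cel.upto, Option.mem_def.1 h₁, Option.mem_def, Option.some.injEq, forall_eq']
      exact far_iff K₁ true i₁ (fun c hc => by simp [Option.mem_def.1 hc] at k1; linarith) a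
    · simp only [Cel.upto, Option.mem_def.1 h₂, Option.mem_def, Option.some.injEq, forall_eq']
      exact far_iff K₂ false i₂ (fun c hc => by simp [Option.mem_def.1 hc] at k2; linarith) a
  refine exists₄_congr fun y' t₁ t₂ δ => ⟨fun ⟨a, b, c₁, c₂, c⟩ =>
    ⟨a.mono fun i k => ⟨k.1, k.2.1⟩, (lg δ).2 ⟨b, a.mono fun i k => k.2.2.1⟩, fun k =>
      ⟨a.mono fun i k => k.2.2.2, c₁, c₂, fun w _ => (c w).1.congr' ((e δ b).mono fun i k => ?_),
        fun w _ => (c w).2.congr' ((e δ b).mono fun i k => ?_)⟩⟩, fun ⟨a, b, c⟩ =>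
    have b' := (lg δ).1 b
    ⟨(a.and (b'.2.and (c 0).t)).mono fun i k => ⟨k.1.1, k.1.2, k.2⟩, b'.1, (c 0).l₁, (c 0).l₂,
      fun w => ⟨((c _).c₁ w le_rfl).congr' ((e δ b'.1).mono fun i k => ?_),
        ((c _).c₂ w le_rfl).congr' ((e δ b'.1).mono fun i k => ?_)⟩⟩⟩
  all_goals simp only [k.1, k.2]; rfl

end Crest.Agent.X212.Fht9
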